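import Vale.Agent.P070.Statement
import Mathlib.Analysis.CStarAlgebra.GelfandNaimarkSegal
import Mathlib.Analysis.Convex.KreinMilman

/-! Every proper closed two-sided ideal of a unital C*-algebra is killed by an irreducible
representation (GNS construction and Krein-Milman). -/

open scoped InnerProductSpace ComplexOrder
open Set

namespace Vale.Agent.P070.H500

open Vale.Agent.P070.Naimark

universe u v

section
variable {A : Type u} [CStarAlgebra A]

/-- The states of `A` vanishing on `I`. -/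
def StatesOn (I : Set A) : Set (A → ℂ) :=
  {f | (∀ a b, f (a + b) = f a + f b) ∧ (∀ (c : ℂ) a, f (c • a) = c * f a) ∧
    (∀ a, 0 ≤ f (star a * a)) ∧ f 1 = 1 ∧ (∀ a ∈ I, f a = 0) ∧ ∀ a, ‖f a‖ ≤ ‖a‖}

theorem isCompact_statesOn (I : Set A) : IsCompact (StatesOn I) := by
  have hc : IsCompact (Set.univ.pi fun a : A => Metric.closedBall (0 : ℂ) ‖a‖) :=
    isCompact_univ_pi fun a => isCompact_closedBall _ _
  refine hc.of_isClosed_subset ?_ ?_
  · have h1 : IsClosed {f : A → ℂ | ∀ a b, f (a + b) = f a + f b} := by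
      simp only [Set.ofPred_forall]
      exact isClosed_iInter fun a => isClosed_iInter fun b =>
        isClosed_eq (continuous_apply _) (by fun_prop)
    have h2 : IsClosed {f : A → ℂ | ∀ (c : ℂ) a, f (c • a) = c * f a} := by
      simp only [Set.ofPred_forall]
      exact isClosed_iInter fun a => isClosed_iInter fun b =>
        isClosed_eq (continuous_apply _) (continuous_const.mul (continuous_apply _))
    have h3 : IsClosed {f : A → ℂ | ∀ a, 0 ≤ f (star a * a)} := by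
      simp only [Set.ofPred_forall]
      exact isClosed_iInter fun a => isClosed_le continuous_const (continuous_apply _)
    have h4 : IsClosed {f : A → ℂ | f 1 = 1} := isClosed_eq (continuous_apply _) continuous_const
    have h5 : IsClosed {f : A → ℂ | ∀ a ∈ I, f a = 0} := by
      simp only [Set.ofPred_forall]
      exact isClosed_iInter fun a => isClosed_iInter fun _ =>
        isClosed_eq (continuous_apply _) continuous_const
    have h6 : IsClosed {f : A → ℂ | ∀ a, ‖f a‖ ≤ ‖a‖} := by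
      simp only [Set.ofPred_forall]
      exact isClosed_iInter fun a => isClosed_le (continuous_apply a).norm continuous_const
    exact h1.inter (h2.inter (h3.inter (h4.inter (h5.inter h6))))
  · intro f hf a _
    rw [Metric.mem_closedBall, dist_zero_right]
    exact hf.2.2.2.2.2 a

/-- A unital contractive functional is real on self-adjoint elements. -/
theorem im_eq_zero [Nontrivial A] (f : A →ₗ[ℂ] ℂ) (h1 : f 1 = 1) (hn : ∀ a, ‖f a‖ ≤ ‖a‖) {a : A}
    (ha : IsSelfAdjoint a) : (f a).im = 0 := by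
  have key : ∀ t : ℝ, (f a).re ^ 2 + ((f a).im + t) ^ 2 ≤ ‖a‖ ^ 2 + t ^ 2 := by
    intro t
    have e1 : f (a + ((t : ℂ) * Complex.I) • (1 : A)) = f a + (t : ℂ) * Complex.I := by
      rw [map_add, map_smul, h1, smul_eq_mul, mul_one]
    have e2 : ‖f a + (t : ℂ) * Complex.I‖ ^ 2 = (f a).re ^ 2 + ((f a).im + t) ^ 2 := by
      rw [← Complex.normSq_eq_norm_sq, Complex.normSq_apply]
      simp
      ring
    have e3 : ‖a + ((t : ℂ) * Complex.I) • (1 : A)‖ ^ 2 ≤ ‖a‖ ^ 2 + t ^ 2 := by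
      rw [sq, ← CStarRing.norm_star_mul_self]
      have e4 : star (a + ((t : ℂ) * Complex.I) • (1 : A)) * (a + ((t : ℂ) * Complex.I) • (1 : A))
          = star a * a + ((t ^ 2 : ℝ) : ℂ) • (1 : A) := by
        rw [star_add, star_smul, star_one, ha.star_eq]
        have e5 : star ((t : ℂ) * Complex.I) = -((t : ℂ) * Complex.I) := by
          rw [Complex.star_def, map_mul, Complex.conj_I, Complex.conj_ofReal]
          ring
        rw [e5]
        simp only [add_mul, mul_add, smul_mul_assoc, mul_smul_comm, one_mul, mul_one, neg_smul,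
          neg_mul, smul_add, smul_neg, smul_smul]
        have e6 : ((t : ℂ) * Complex.I) * ((t : ℂ) * Complex.I) = -((t ^ 2 : ℝ) : ℂ) := by
          push_cast
          linear_combination (t : ℂ) ^ 2 * Complex.I_sq
        rw [e6, neg_smul]
        abel
      rw [e4]
      refine (norm_add_le _ _).trans ?_
      rw [CStarRing.norm_star_mul_self, norm_smul, CStarRing.norm_one, mul_one,
        Complex.norm_of_nonneg (sq_nonneg t), ← sq]
    rw [← e2, ← e1]
    exact (pow_le_pow_left₀ (norm_nonneg _) (hn _) 2).trans e3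
  by_contra h0
  have h2 := key (‖a‖ ^ 2 / (f a).im)
  have h3 : (f a).im * (‖a‖ ^ 2 / (f a).im) = ‖a‖ ^ 2 := by field_simp
  have h4 : 0 < (f a).im ^ 2 := by positivity
  nlinarith [sq_nonneg (f a).re, sq_nonneg ‖a‖]

attribute [local instance] CStarAlgebra.spectralOrder CStarAlgebra.spectralOrderedRing

/-- A unital contractive functional is positive. -/
theorem nonneg_apply [Nontrivial A] (f : A →ₗ[ℂ] ℂ) (h1 : f 1 = 1) (hn : ∀ a, ‖f a‖ ≤ ‖a‖) {a : A}
    (ha : 0 ≤ a) : 0 ≤ f a := by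
  have hsa : IsSelfAdjoint a := ha.isSelfAdjoint
  have him := im_eq_zero f h1 hn hsa
  rw [Complex.nonneg_iff]
  refine ⟨?_, him.symm⟩
  have e1 : a ≤ algebraMap ℝ A ‖a‖ := hsa.le_algebraMap_norm_self
  have e2 : ‖algebraMap ℝ A ‖a‖ - a‖ ≤ ‖a‖ := by
    have h2 : ‖algebraMap ℝ A ‖a‖ - a‖ ≤ ‖algebraMap ℝ A ‖a‖‖ :=
      CStarAlgebra.norm_le_norm_of_nonneg_of_le (sub_nonneg.2 e1) (sub_le_self _ ha)
    rw [norm_algebraMap', norm_norm] at h2
    exact h2
  have e3 : f (algebraMap ℝ A ‖a‖ - a) = (‖a‖ : ℂ) - f a := by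
    rw [map_sub, Algebra.algebraMap_eq_smul_one]
    have : (‖a‖ : ℝ) • (1 : A) = ((‖a‖ : ℝ) : ℂ) • (1 : A) := by
      rw [Complex.coe_smul]
    rw [this, map_smul, h1, smul_eq_mul, mul_one]
  have e4 := (hn (algebraMap ℝ A ‖a‖ - a)).trans e2
  rw [e3] at e4
  have e5 := (Complex.re_le_norm _).trans e4
  rw [Complex.sub_re, Complex.ofReal_re] at e5
  linarith

/-- There is a state vanishing on a given proper closed ideal. -/
theorem nonempty_statesOn (I : Submodule ℂ A) (hcl : IsClosed (I : Set A))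
    (hl : ∀ a, ∀ b ∈ I, a * b ∈ I) (h1 : (1 : A) ∉ I) : (StatesOn (I : Set A)).Nonempty := by
  have hnt : Nontrivial A := ⟨⟨1, 0, fun h => h1 (h ▸ I.zero_mem)⟩⟩
  have := hcl
  have hdist : ∀ b ∈ I, 1 ≤ ‖(1 : A) - b‖ := by
    intro b hb
    by_contra hlt
    push Not at hlt
    have hu : IsUnit b := by
      have := (Units.oneSub ((1 : A) - b) hlt).isUnit
      simpa using this
    obtain ⟨v, hv⟩ := hu
    apply h1
    have := hl (↑v⁻¹ : A) b hb
    rwa [← hv, Units.inv_mul] at this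
  have hq : ‖(Submodule.Quotient.mk (1 : A) : A ⧸ I)‖ = 1 := by
    apply le_antisymm
    · exact (Submodule.Quotient.norm_mk_le I (1 : A)).trans CStarRing.norm_one.le
    · refine le_of_forall_pos_le_add fun ε hε => ?_
      obtain ⟨m, hm, hm2⟩ := Submodule.Quotient.norm_mk_lt
        (Submodule.Quotient.mk (1 : A) : A ⧸ I) hε
      have h2 : (1 : A) - m ∈ I := by
        rw [← Submodule.Quotient.eq]
        exact hm.symm
      have h3 := hdist _ h2
      rw [sub_sub_cancel] at h3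
      exact h3.trans hm2.le
  obtain ⟨g, hg1, hg2⟩ := exists_dual_vector'' ℂ (Submodule.Quotient.mk (1 : A) : A ⧸ I)
  rw [hq] at hg2
  let f : A →ₗ[ℂ] ℂ := (g : (A ⧸ I) →ₗ[ℂ] ℂ) ∘ₗ I.mkQ
  have hf : ∀ a, f a = g (Submodule.Quotient.mk a) := fun a => rfl
  have hf1 : f 1 = 1 := by rw [hf, hg2]; norm_num
  have hfn : ∀ a, ‖f a‖ ≤ ‖a‖ := by
    intro a
    rw [hf]
    calc ‖g (Submodule.Quotient.mk a)‖ ≤ ‖g‖ * ‖(Submodule.Quotient.mk a : A ⧸ I)‖ := g.le_opNorm _
      _ ≤ 1 * ‖a‖ := by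
        gcongr
        exact Submodule.Quotient.norm_mk_le I a
      _ = ‖a‖ := one_mul _
  refine ⟨f, map_add f, fun c a => ?_, fun a => nonneg_apply f hf1 hfn (star_mul_self_nonneg a),
    hf1, fun a ha => ?_, hfn⟩
  · rw [map_smul, smul_eq_mul]
  · rw [hf, (Submodule.Quotient.mk_eq_zero I).2 ha, map_zero]

/-- The GNS construction. -/
theorem exists_gns (F : A →ₚ[ℂ] ℂ) :
    ∃ (L : Type u) (_ : NormedAddCommGroup L) (_ : InnerProductSpace ℂ L) (_ : CompleteSpace L)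
      (σ : A →⋆ₙₐ[ℂ] (L →L[ℂ] L)) (z : L), DenseRange (fun a => σ a z) ∧
      ∀ a, ⟪z, σ a z⟫_ℂ = F a := by
  refine ⟨F.GNS, inferInstance, inferInstance, inferInstance, F.gnsNonUnitalStarAlgHom,
    ((F.toPreGNS 1 : F.PreGNS) : F.GNS), ?_, ?_⟩
  · have : (fun a => F.gnsNonUnitalStarAlgHom a ((F.toPreGNS 1 : F.PreGNS) : F.GNS))
        = (fun x : F.PreGNS => (x : F.GNS)) ∘ F.toPreGNS := by
      ext a
      simp
    rw [this]
    exact UniformSpace.Completion.denseRange_coe.comp F.toPreGNS.surjective.denseRange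
      (UniformSpace.Completion.continuous_coe _)
  · intro a
    simp [PositiveLinearMap.preGNS_inner_def]

section
variable {L : Type v} [NormedAddCommGroup L] [InnerProductSpace ℂ L] [CompleteSpace L]

theorem inner_rep (σ : A →⋆ₙₐ[ℂ] (L →L[ℂ] L)) (a : A) (x y : L) :
    ⟪σ a x, y⟫_ℂ = ⟪x, σ (star a) y⟫_ℂ := by
  rw [map_star, ContinuousLinearMap.star_eq_adjoint, ContinuousLinearMap.adjoint_inner_right]

omit [CompleteSpace L] in
theorem inner_self' (x : L) : ⟪x, x⟫_ℂ = (‖x‖ : ℂ) ^ 2 := inner_self_eq_norm_sq_to_K x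

theorem mul_rep (σ : A →⋆ₙₐ[ℂ] (L →L[ℂ] L)) (a b : A) (x : L) : σ (a * b) x = σ a (σ b x) := by
  rw [map_mul]
  rfl

/-- Vector states. -/
theorem vectorState_mem {I : Set A} (σ : A →⋆ₙₐ[ℂ] (L →L[ℂ] L)) (h1 : ∀ x, σ 1 x = x)
    (hI : ∀ a ∈ I, σ a = 0) {u : L} (hu : u ≠ 0) :
    (fun a => ⟪u, σ a u⟫_ℂ / (‖u‖ : ℂ) ^ 2) ∈ StatesOn I := by
  have hu0 : (‖u‖ : ℂ) ^ 2 ≠ 0 := by
    simpa using hu
  have hpos : (0 : ℂ) ≤ ((‖u‖ : ℂ) ^ 2)⁻¹ := by
    have : ((‖u‖ : ℂ) ^ 2)⁻¹ = (((‖u‖ ^ 2)⁻¹ : ℝ) : ℂ) := by push_cast; rfl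
    rw [this]
    exact Complex.zero_le_real.2 (by positivity)
  refine ⟨fun a b => ?_, fun c a => ?_, fun a => ?_, ?_, fun a ha => ?_, fun a => ?_⟩
  · simp only [map_add, add_apply, inner_add_right, add_div]
  · simp only [map_smul, smul_apply, inner_smul_right, mul_div_assoc]
  · simp only
    rw [mul_rep, ← inner_rep, inner_self', div_eq_mul_inv]
    refine mul_nonneg ?_ hpos
    exact_mod_cast (by positivity : (0 : ℝ) ≤ ‖σ a u‖ ^ 2)
  · simp only [h1]
    rw [inner_self']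
    exact div_self hu0
  · simp only [hI a ha, zero_apply, inner_zero_right, zero_div]
  · rw [norm_div, norm_pow, Complex.norm_real, norm_norm, div_le_iff₀ (by positivity)]
    calc ‖⟪u, σ a u⟫_ℂ‖ ≤ ‖u‖ * ‖σ a u‖ := norm_inner_le_norm _ _
      _ ≤ ‖u‖ * (‖a‖ * ‖u‖) := by
        gcongr
        exact (ContinuousLinearMap.le_opNorm _ _).trans (by
          gcongr
          exact NonUnitalStarAlgHom.norm_apply_le σ a)
      _ = ‖a‖ * ‖u‖ ^ 2 := by ring

theorem eq_zero_of_dense {σ : A →⋆ₙₐ[ℂ] (L →L[ℂ] L)} {z : L} (hd : DenseRange (fun a => σ a z))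
    {w : L} (hw : ∀ a, ⟪σ a z, w⟫_ℂ = 0) : w = 0 := by
  have h1 : ∀ x : L, ⟪x, w⟫_ℂ = 0 := by
    intro x
    exact hd.induction_on (p := fun x => ⟪x, w⟫_ℂ = 0) x
      (isClosed_eq (by fun_prop) continuous_const) hw
  exact inner_self_eq_zero.1 (h1 w)

/-- The GNS representation of an extreme point is irreducible and kills the ideal. -/
theorem irred_of_extreme (I : Submodule ℂ A) (hl : ∀ a, ∀ b ∈ I, a * b ∈ I)
    (hr : ∀ a, ∀ b ∈ I, b * a ∈ I) {f : A → ℂ}
    (hf : f ∈ (StatesOn (I : Set A)).extremePoints ℝ) (σ : A →⋆ₙₐ[ℂ] (L →L[ℂ] L)) (z : L)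
    (hd : DenseRange (fun a => σ a z)) (hz : ∀ a, ⟪z, σ a z⟫_ℂ = f a) :
    (∀ a ∈ I, σ a = 0) ∧ (∃ a x, σ a x ≠ 0) ∧ ∀ V : Submodule ℂ L, IsClosed (V : Set L) →
      (∀ a, ∀ x ∈ V, σ a x ∈ V) → V = ⊥ ∨ V = ⊤ := by
  obtain ⟨hadd, hsmul, hpos, hone, hI, hnorm⟩ := hf.1
  have h1 : ∀ x, σ 1 x = x := by
    intro x
    refine hd.induction_on (p := fun x => σ 1 x = x) x (isClosed_eq (by fun_prop) continuous_id) ?_
    intro a
    rw [← mul_rep, one_mul]
  have hzz : ⟪z, z⟫_ℂ = 1 := by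
    have := hz 1
    rwa [h1, hone] at this
  have hz0 : z ≠ 0 := by
    rintro rfl
    simp at hzz
  have hkill : ∀ b ∈ I, σ b = 0 := by
    intro b hb
    ext x
    refine hd.induction_on (p := fun x => σ b x = (0 : L →L[ℂ] L) x) x
      (isClosed_eq (by fun_prop) (by fun_prop)) ?_
    intro a
    have h2 : ⟪σ b (σ a z), σ b (σ a z)⟫_ℂ = 0 := by
      rw [← mul_rep, inner_rep, ← mul_rep, hz]
      exact hI _ (hl _ _ (hr _ _ hb))
    rw [inner_self_eq_zero.1 h2, zero_apply]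
  refine ⟨hkill, ⟨1, z, by rwa [h1]⟩, fun V hV hinv => ?_⟩
  have : CompleteSpace V := hV.completeSpace_coe
  obtain ⟨y, hy, y', hy', hyy⟩ : ∃ y ∈ V, ∃ y' ∈ Vᗮ, y + y' = z := by
    refine ⟨V.starProjection z, ?_, z - V.starProjection z, ?_, by abel⟩
    · exact Submodule.starProjection_apply_mem _ _
    · exact Submodule.sub_starProjection_mem_orthogonal _
  have hVo : ∀ a, ∀ x ∈ Vᗮ, σ a x ∈ Vᗮ := by
    intro a x hx
    rw [Submodule.mem_orthogonal] at hx ⊢
    intro u hu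
    have := hx (σ (star a) u) (hinv _ _ hu)
    rwa [inner_rep, star_star] at this
  have horth : ∀ u ∈ V, ∀ w ∈ Vᗮ, ⟪u, w⟫_ℂ = 0 ∧ ⟪w, u⟫_ℂ = 0 := by
    intro u hu w hw
    exact ⟨(Submodule.mem_orthogonal _ _).1 hw u hu, (Submodule.mem_orthogonal' _ _).1 hw u hu⟩
  by_cases hy0 : y = 0
  · left
    rw [eq_bot_iff]
    intro v hv
    rw [Submodule.mem_bot]
    refine eq_zero_of_dense hd fun a => ?_
    have hzV : z ∈ Vᗮ := by rw [← hyy, hy0, zero_add]; exact hy'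
    exact (horth v hv _ (hVo a z hzV)).2
  by_cases hy0' : y' = 0
  · right
    rw [eq_top_iff]
    intro v _
    have hzV : z ∈ V := by rw [← hyy, hy0', add_zero]; exact hy
    exact hd.induction_on (p := fun x => x ∈ V) v hV fun a => hinv a z hzV
  exfalso
  have ht : ‖y‖ ^ 2 + ‖y'‖ ^ 2 = 1 := by
    have h2 : ⟪y + y', y + y'⟫_ℂ = 1 := by rw [hyy, hzz]
    rw [inner_add_left, inner_add_right, inner_add_right, (horth y hy y' hy').1,
      (horth y hy y' hy').2, inner_self', inner_self', add_zero, zero_add] at h2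
    exact_mod_cast h2
  have hyp : 0 < ‖y‖ ^ 2 := by positivity
  have hyp' : 0 < ‖y'‖ ^ 2 := by positivity
  have hsplit : ∀ a, f a = ⟪y, σ a y⟫_ℂ + ⟪y', σ a y'⟫_ℂ := by
    intro a
    rw [← hz, ← hyy, map_add, inner_add_left, inner_add_right, inner_add_right,
      (horth y hy _ (hVo a y' hy')).1, (horth _ (hinv a y hy) y' hy').2, add_zero, zero_add]
  have hseg : f ∈ openSegment ℝ (fun a => ⟪y, σ a y⟫_ℂ / (‖y‖ : ℂ) ^ 2)
      (fun a => ⟪y', σ a y'⟫_ℂ / (‖y'‖ : ℂ) ^ 2) := by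
    refine ⟨‖y‖ ^ 2, ‖y'‖ ^ 2, hyp, hyp', ht, ?_⟩
    ext a
    have e1 : (‖y‖ : ℂ) ^ 2 ≠ 0 := by simpa using hy0
    have e2 : (‖y'‖ : ℂ) ^ 2 ≠ 0 := by simpa using hy0'
    rw [Pi.add_apply, Pi.smul_apply, Pi.smul_apply, Complex.real_smul, Complex.real_smul, hsplit]
    push_cast
    field_simp
  have hext := (mem_extremePoints.1 hf).2 _ (vectorState_mem σ h1 hkill hy0) _
    (vectorState_mem σ h1 hkill hy0') hseg
  have hprop : ∀ a, ⟪y, σ a y⟫_ℂ = (‖y‖ : ℂ) ^ 2 * ⟪z, σ a z⟫_ℂ := by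
    intro a
    have h2 : ⟪y, σ a y⟫_ℂ / (‖y‖ : ℂ) ^ 2 = f a := congrFun hext.1 a
    rw [hz, ← h2]
    have e1 : (‖y‖ : ℂ) ^ 2 ≠ 0 := by simpa using hy0
    field_simp
  have hyz : y - (‖y‖ : ℂ) ^ 2 • z = 0 := by
    refine eq_zero_of_dense hd fun a => ?_
    rw [inner_rep, map_sub, map_smul, inner_sub_right, inner_smul_right, ← hprop, ← hyy,
      inner_add_left, (horth _ (hinv _ y hy) y' hy').2, add_zero, sub_self]
  have hyz' := sub_eq_zero.1 hyz
  have hz1 : ‖z‖ = 1 := by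
    have h2 : (‖z‖ : ℂ) ^ 2 = 1 := by rw [← inner_self', hzz]
    have h3 : ‖z‖ ^ 2 = 1 := by exact_mod_cast h2
    nlinarith [norm_nonneg z]
  have h3 : ‖y‖ = ‖y‖ ^ 2 := by
    have := congrArg norm hyz'
    rwa [norm_smul, norm_pow, Complex.norm_real, norm_norm, hz1, mul_one] at this
  linarith [norm_pos_iff.2 hy0, (by nlinarith [norm_pos_iff.2 hy0] : ‖y‖ = 1)]

end

/-- A proper closed two-sided ideal of a unital C*-algebra is killed by an irreducible
representation. -/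
theorem exists_irrep_killing (I : Submodule ℂ A) (hcl : IsClosed (I : Set A))
    (hl : ∀ a, ∀ b ∈ I, a * b ∈ I) (hr : ∀ a, ∀ b ∈ I, b * a ∈ I) (h1 : (1 : A) ∉ I) :
    ∃ (L : Type u) (_ : NormedAddCommGroup L) (_ : InnerProductSpace ℂ L) (_ : CompleteSpace L)
      (π : Rep A L), IsIrred π ∧ ∀ a ∈ I, π.op a = 0 := by
  obtain ⟨f, hf⟩ := (isCompact_statesOn (I : Set A)).extremePoints_nonempty
    (nonempty_statesOn I hcl hl h1)
  obtain ⟨hadd, hsmul, hpos, hone, hI, hnorm⟩ := hf.1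
  let F0 : A →ₗ[ℂ] ℂ := { toFun := f, map_add' := hadd, map_smul' := hsmul }
  let F : A →ₚ[ℂ] ℂ := PositiveLinearMap.mk₀ F0 fun x hx => by
    obtain ⟨y, rfl⟩ := CStarAlgebra.nonneg_iff_eq_star_mul_self.1 hx
    exact hpos y
  obtain ⟨L, _, _, _, σ, z, hd, hz⟩ := exists_gns F
  obtain ⟨h2, h3, h4⟩ := irred_of_extreme I hl hr hf σ z hd hz
  exact ⟨L, inferInstance, inferInstance, inferInstance, σ, ⟨h3, h4⟩, h2⟩

end

end Vale.Agent.P070.H500
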