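import Vale.Agent.P070.Bdl.B2
import Mathlib.SetTheory.Cardinal.Continuum
import Mathlib.Analysis.Real.Cardinality

/-! The algebra of `main_exists` has cardinality at most the continuum, and one of its elements
has a one-dimensional kernel in every irreducible representation. (The proof of `main_exists` is
repeated with these two additional conclusions.) -/

namespace Vale.Agent.P070

open scoped InnerProductSpace
open Filter Topology

universe u v w

/-- Operators on `ℓ²(ι)`, `ι` countable, form a set of cardinality at most the continuum. -/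
theorem mk_Op_le {ι : Type} [Countable ι] : Cardinal.mk (Op (L2 ι)) ≤ Cardinal.continuum := by
  classical
  have hinj : Function.Injective (fun (T : Op (L2 ι)) (p : ι × ι) => T (lp.single 2 p.1 1) p.2) := by
    intro S T h
    ext1 f
    have h1 : HasSum (fun i => lp.single 2 i (f i)) f := lp.hasSum_single (by norm_num) f
    have h2 : ∀ i, S (lp.single 2 i (f i)) = T (lp.single 2 i (f i)) := by
      intro i
      have h3 : (lp.single 2 i (f i) : L2 ι) = (f i) • (lp.single 2 i (1 : ℂ) : L2 ι) := by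
        rw [← lp.single_smul, smul_eq_mul, mul_one]
      have h4 : S (lp.single 2 i 1) = T (lp.single 2 i 1) := by
        ext j
        exact congrFun h (i, j)
      rw [h3, map_smul, map_smul, h4]
    have h5 := h1.mapL S
    have h6 := h1.mapL T
    simp only [h2] at h5
    exact h5.unique h6
  refine (Cardinal.mk_le_of_injective hinj).trans ?_
  rw [← Cardinal.power_def, Cardinal.mk_complex]
  calc Cardinal.continuum ^ Cardinal.mk (ι × ι) ≤ Cardinal.continuum ^ Cardinal.aleph0 :=
        Cardinal.power_le_power_left Cardinal.continuum_ne_zero (Cardinal.mk_le_aleph0)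
    _ = Cardinal.continuum := Cardinal.continuum_power_aleph0

/-- The base data on a Hilbert space whose operators form a set of cardinality at most the
continuum. -/
theorem exists_base' : ∃ (H : Type) (_ : NormedAddCommGroup H) (_ : InnerProductSpace ℂ H)
    (_ : CompleteSpace H) (_ : Nontrivial H) (A0 : StarSubalgebra ℂ (Op H)) (k U : Op H),
    IsBase A0 k U ∧ Cardinal.mk (Op H) ≤ Cardinal.continuum := by
  classical
  have R : Rel opA opU := by
    refine ⟨opA_sq, fun i => ?_, fun i j h => opA_comm h, fun i j h => ?_, opUA_comm, fun i => ?_⟩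
    · rw [star_opA]; exact opA_car i
    · rw [star_opA]; exact opAB_comm h
    · rw [star_opA]; exact opUB_comm i
  refine ⟨L2 Idx, inferInstance, inferInstance, inferInstance, ?_, baseAlg opA, kk opA, opU,
    R.isBase opA_noV, mk_Op_le⟩
  refine ⟨⟨0, lp.single 2 (0, ∅) 1, fun h => ?_⟩⟩
  have h1 := congrArg (fun z : L2 Idx => z (0, ∅)) h
  simp only [ZeroMemClass.coe_zero, PreLp.zero_apply, lp.single_apply, Pi.single_eq_same,
    zero_ne_one] at h1

/-- The closure of the image of a set of cardinality at most the continuum. -/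
theorem mk_closure_le {H : Type} [NormedAddCommGroup H] [InnerProductSpace ℂ H] [CompleteSpace H]
    (hcard : Cardinal.mk (Op H) ≤ Cardinal.continuum) {S : StarSubalgebra ℂ (Op H)} {B : Type}
    [CStarAlgebra B] (q : S → B) (hq : DenseRange q) : Cardinal.mk B ≤ Cardinal.continuum := by
  have hex : ∀ b : B, ∃ s : ℕ → S, Tendsto (fun n => q (s n)) atTop (𝓝 b) := by
    intro b
    obtain ⟨t, ht, htb⟩ := mem_closure_iff_seq_limit.1 (hq b)
    choose s hs using ht
    exact ⟨s, by simpa only [hs] using htb⟩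
  choose s hs using hex
  have hinj : Function.Injective s := by
    intro b b' h
    have h1 := hs b
    rw [h] at h1
    exact tendsto_nhds_unique h1 (hs b')
  refine (Cardinal.mk_le_of_injective hinj).trans ?_
  rw [← Cardinal.power_def]
  calc Cardinal.mk S ^ Cardinal.mk ℕ ≤ Cardinal.continuum ^ Cardinal.mk ℕ :=
        Cardinal.power_le_power_right ((Cardinal.mk_subtype_le _).trans hcard)
    _ = Cardinal.continuum := by
        rw [Cardinal.mk_nat]; exact Cardinal.continuum_power_aleph0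

/-- If every element is a scalar on the kernel of `κ`, then this kernel is a line in an
irreducible representation. -/
theorem ker_line {B : Type u} [CStarAlgebra B] {L : Type v} [NormedAddCommGroup L]
    [InnerProductSpace ℂ L] [CompleteSpace L] {π : B →⋆ₙₐ[ℂ] (L →L[ℂ] L)} {c : B → ℂ} (κ : B)
    {hπ' : IsIrred π}
    (hdet : ∀ (b : B) (z w : L), hπ'.toUnital κ z = 0 → hπ'.toUnital κ w = 0 →
      ⟪w, hπ'.toUnital b z⟫_ℂ = c b * ⟪w, z⟫_ℂ)
    (hker : Nontrivial L →
      (∀ V : Submodule ℂ L, IsClosed (V : Set L) → (∀ b, ∀ x ∈ V, hπ'.toUnital b x ∈ V) →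
        V = ⊥ ∨ V = ⊤) → ∃ z : L, z ≠ 0 ∧ hπ'.toUnital κ z = 0) (hπ : IsIrred π) :
    ∃ z : L, z ≠ 0 ∧ ∀ w : L, π κ w = 0 ↔ ∃ c : ℂ, w = c • z := by
  have hnt : Nontrivial L := by
    obtain ⟨a, ha⟩ := hπ.1
    by_contra hN
    rw [not_nontrivial_iff_subsingleton] at hN
    exact ha (Subsingleton.elim _ _)
  obtain ⟨z, hz, hkz⟩ := hker hnt hπ.2
  have hzz : ⟪z, z⟫_ℂ ≠ 0 := inner_self_ne_zero.2 hz
  refine ⟨z, hz, fun w => ⟨fun hw => ?_, ?_⟩⟩
  · refine ⟨⟪z, w⟫_ℂ / ⟪z, z⟫_ℂ, ?_⟩
    set w' := w - (⟪z, w⟫_ℂ / ⟪z, z⟫_ℂ) • z with hw'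
    have h1 : π κ w' = 0 := by
      have : π κ z = 0 := hkz
      rw [hw', map_sub, map_smul, hw, this, smul_zero, sub_zero]
    have h2 : ⟪w', z⟫_ℂ = 0 := by
      rw [← inner_conj_symm, hw', inner_sub_right, inner_smul_right, div_mul_cancel₀ _ hzz,
        sub_self, map_zero]
    have h3 : ∀ b, ⟪w', π b z⟫_ℂ = 0 := by
      intro b
      have := hdet b z w' hkz h1
      rw [h2, mul_zero] at this
      exact this
    have h4 : ∀ y : L, ⟪w', y⟫_ℂ = 0 := by
      intro y
      exact (dense_orbit hπ hz).induction_on (p := fun y => ⟪w', y⟫_ℂ = 0) y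
        (isClosed_eq (by fun_prop) continuous_const) h3
    have h5 : w' = 0 := inner_self_eq_zero.1 (h4 w')
    exact sub_eq_zero.1 h5
  · rintro ⟨c, rfl⟩
    have : π κ z = 0 := hkz
    rw [map_smul, this, smul_zero]

theorem main_exists' : ∃ (B : Type) (_ : CStarAlgebra B), PropertyN.{0, v} B ∧
    ¬ IsCompacts.{0, w} B ∧ ¬ FiniteDimensional ℂ B ∧
    (∃ (L : Type) (_ : NormedAddCommGroup L) (_ : InnerProductSpace ℂ L) (_ : CompleteSpace L)
      (π : B →⋆ₙₐ[ℂ] (L →L[ℂ] L)), IsIrred π ∧ Function.Injective π) ∧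
    Cardinal.mk B ≤ Cardinal.continuum ∧
    ∃ d : B, ∀ (L : Type v) [NormedAddCommGroup L] [InnerProductSpace ℂ L] [CompleteSpace L]
      (π : B →⋆ₙₐ[ℂ] (L →L[ℂ] L)), IsIrred π →
        ∃ z : L, z ≠ 0 ∧ ∀ w : L, π d w = 0 ↔ ∃ c : ℂ, w = c • z := by
  obtain ⟨H, _, _, _, _, A0, k0, U, hB, hcard⟩ := exists_base'
  obtain ⟨K, _, _, _, P, hP⟩ := exists_ultraRep H
  obtain ⟨ξ, hξ, hξk⟩ : ∃ z : K, ‖z‖ = 1 ∧ P k0 z = 0 := by
    refine exists_ker hP fun ε hε => ?_
    obtain ⟨x, hx⟩ := exists_ne (0 : H)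
    obtain ⟨b, _, hb1, hb2⟩ := hB.full H (StarAlgHom.id ℂ (Op H)) x hx ε hε
    exact ⟨b x, hb1, hb2⟩
  have hξ0 : ξ ≠ 0 := by
    intro h
    rw [h, norm_zero] at hξ
    exact zero_ne_one hξ
  obtain ⟨ι, _, _, k, u, T, hmax⟩ := exists_maximal_tower P A0 k0 U hB.k_mem hB.k_nonneg
    (hB.det K P) ⟨ξ, hξk, hξ0⟩
  have hcl := gen_isClosed A0 u Set.univ
  have hdet0 := tower_det0 hB.closed T
  have hk0A : k0 ∈ gen A0 u Set.univ := le_gen A0 u _ hB.k_mem
  obtain ⟨Kf, _, _, _, ρ, j, x, hjx, hj, hdense⟩ := exists_cyclic P (gen A0 u Set.univ) ξ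
  have hx1 : ‖x‖ = 1 := by rw [← hξ, ← hjx, j.norm_map]
  have hx0 : x ≠ 0 := by
    intro h
    rw [h, norm_zero] at hx1
    exact zero_ne_one hx1
  -- the algebra
  set B : StarSubalgebra ℂ (Op Kf) := ρ.range.topologicalClosure with hBdef
  have hBcl : IsClosed (B : Set (Op Kf)) := StarSubalgebra.isClosed_topologicalClosure _
  have hρB : ∀ a, ρ a ∈ B := fun a => StarSubalgebra.le_topologicalClosure _ ⟨a, rfl⟩
  let q : gen A0 u Set.univ →⋆ₐ[ℂ] B := StarAlgHom.codRestrict ρ B hρB
  have hq : ∀ a, ((q a : B) : Op Kf) = ρ a := fun a => rfl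
  have hqd : DenseRange q := by
    intro b
    rw [closure_subtype]
    have h1 : ((b : B) : Op Kf) ∈ closure (ρ.range : Set (Op Kf)) := b.2
    refine closure_mono ?_ h1
    rintro _ ⟨a, rfl⟩
    exact ⟨q a, ⟨a, rfl⟩, rfl⟩
  let _ : CStarAlgebra B := StarSubalgebra.cstarAlgebra B
  have hcont : ∀ {L : Type v} [NormedAddCommGroup L] [InnerProductSpace ℂ L] [CompleteSpace L]
      (π : B →⋆ₐ[ℂ] (L →L[ℂ] L)) (z : L), Continuous fun b => π b z := by
    intro L _ _ _ π z
    have : Continuous π := AddMonoidHomClass.continuous_of_bound π 1 (by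
      simpa only [one_mul] using NonUnitalStarAlgHom.norm_apply_le π)
    exact (ContinuousLinearMap.apply ℂ L z).continuous.comp this
  have hBnt : Nontrivial B := by
    refine ⟨⟨0, 1, ?_⟩⟩
    intro h
    have h1 : ((0 : B) : Op Kf) x = ((1 : B) : Op Kf) x := by rw [h]
    exact hx0 h1.symm
  set κ : B := q ⟨k0, hk0A⟩ with hκ
  -- constants
  have hc : ∀ a : gen A0 u Set.univ, DetAt P k0 (a : Op H) ⟪x, ρ a x⟫_ℂ := by
    intro a
    obtain ⟨c, hc⟩ := hdet0 a a.2
    have h1 := hc ξ ξ hξk hξk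
    have h2 : ⟪ξ, ξ⟫_ℂ = 1 := by rw [inner_self_eq_norm_sq_to_K, hξ]; norm_num
    rw [h2, mul_one] at h1
    have h3 : ⟪x, ρ a x⟫_ℂ = c := by
      rw [← h1, ← j.inner_map_map, hj, hjx]
    rw [h3]
    exact hc
  have hinf : ¬ FiniteDimensional ℂ B := by
    intro hfin
    obtain ⟨e, he, ho⟩ := hB.infinite K P ξ hξ hξk
    have hli : LinearIndependent ℂ (fun n : ℕ => P (e n) ξ) := ho.linearIndependent
    let f : B →ₗ[ℂ] K :=
      { toFun := fun b => j ((b : Op Kf) x)
        map_add' := fun a b => by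
          show j (((a : Op Kf) + (b : Op Kf)) x) = _
          rw [add_apply, map_add]
        map_smul' := fun r b => by
          show j ((r • (b : Op Kf)) x) = _
          rw [smul_apply, map_smul]
          rfl }
    have hfe : ∀ n, f (q ⟨e n, le_gen A0 u _ (he n)⟩) = P (e n) ξ := by
      intro n
      show j (ρ ⟨e n, le_gen A0 u _ (he n)⟩ x) = P (e n) ξ
      rw [hj, hjx]
    have hli2 : LinearIndependent ℂ (fun n : ℕ => q ⟨e n, le_gen A0 u _ (he n)⟩) := by
      refine LinearIndependent.of_comp f ?_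
      have : (f ∘ fun n : ℕ => q ⟨e n, le_gen A0 u _ (he n)⟩) = fun n : ℕ => P (e n) ξ :=
        funext hfe
      rw [this]
      exact hli
    exact Module.Finite.not_linearIndependent_of_infinite _ hli2
  have hdetB : ∀ (L : Type v) [NormedAddCommGroup L] [InnerProductSpace ℂ L] [CompleteSpace L]
      (π : B →⋆ₐ[ℂ] (L →L[ℂ] L)) (b : B) (z w : L), π κ z = 0 → π κ w = 0 →
      ⟪w, π b z⟫_ℂ = ⟪x, ((b : B) : Op Kf) x⟫_ℂ * ⟪w, z⟫_ℂ := by
      intro L _ _ _ π b z w hz hw
      refine hqd.induction_on (p := fun b => ⟪w, π b z⟫_ℂ =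
        ⟪x, ((b : B) : Op Kf) x⟫_ℂ * ⟪w, z⟫_ℂ) b ?_ ?_
      · refine isClosed_eq (continuous_const.inner (hcont π z)) ?_
        refine Continuous.mul ?_ continuous_const
        refine continuous_const.inner ?_
        exact (ContinuousLinearMap.apply ℂ Kf x).continuous.comp continuous_subtype_val
      · intro a
        exact det_transfer hP _ hcl hk0A hB.k_nonneg (hc a) (π.comp q) z w hz hw
  have hkerB : ∀ (L : Type v) [NormedAddCommGroup L] [InnerProductSpace ℂ L] [CompleteSpace L]
      (π : B →⋆ₐ[ℂ] (L →L[ℂ] L)), Nontrivial L →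
      (∀ V : Submodule ℂ L, IsClosed (V : Set L) → (∀ b, ∀ x ∈ V, π b x ∈ V) →
        V = ⊥ ∨ V = ⊤) → ∃ z : L, z ≠ 0 ∧ π κ z = 0 := by
      intro L _ _ _ π hL hirr
      refine exists_ker_of_irred hB hP T hmax hξ hξk (π.comp q) ?_ ?_
      · intro V hV hinv
        refine hirr V hV ?_
        intro b y hy
        refine hqd.induction_on (p := fun b => π b y ∈ V) b ?_ ?_
        · exact hV.preimage (hcont π y)
        · intro a
          exact hinv a y hy
      · intro a ha
        have h1 : ρ a = 0 := by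
          ext y
          refine hdense.induction_on (p := fun y => ρ a y = (0 : Op Kf) y) y ?_ ?_
          · exact isClosed_eq (ρ a).continuous continuous_const
          · intro b
            apply j.injective
            rw [hj, hj, hjx, ha b]
            simp
        have h2 : q a = 0 := Subtype.ext h1
        show π (q a) = 0
        rw [h2, map_zero]
  refine ⟨B, inferInstance, propertyN_of_determined κ _ hdetB hkerB, not_isCompacts hinf, hinf,
    ?_, ?_, ?_⟩
  · -- the identity representation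
    let ρ' : B →⋆ₙₐ[ℂ] (Kf →L[ℂ] Kf) :=
      { toFun := fun b => (b : Op Kf)
        map_smul' := fun _ _ => rfl
        map_zero' := rfl
        map_add' := fun _ _ => rfl
        map_mul' := fun _ _ => rfl
        map_star' := fun _ => rfl }
    refine ⟨Kf, inferInstance, inferInstance, inferInstance, ρ', ?_, Subtype.val_injective⟩
    have hjk : ∀ z : Kf, ρ' κ z = 0 → P k0 (j z) = 0 := by
      intro z hz
      have h1 : j (ρ ⟨k0, hk0A⟩ z) = P k0 (j z) := hj _ _
      rw [← h1]
      have h2 : ρ ⟨k0, hk0A⟩ z = 0 := hz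
      rw [h2, map_zero]
    refine irred_of_determined ρ' κ x hx0 ?_ ?_ ?_
    · show ρ ⟨k0, hk0A⟩ x = 0
      apply j.injective
      rw [hj, hjx, hξk, map_zero]
    · refine hdense.mono ?_
      rintro _ ⟨a, rfl⟩
      exact ⟨q a, rfl⟩
    · intro b
      refine ⟨⟪x, (b : Op Kf) x⟫_ℂ, fun z w hz hw => ?_⟩
      refine hqd.induction_on (p := fun b => ⟪w, ((b : B) : Op Kf) z⟫_ℂ =
        ⟪x, ((b : B) : Op Kf) x⟫_ℂ * ⟪w, z⟫_ℂ) b ?_ ?_
      · refine isClosed_eq (continuous_const.inner ?_) ?_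
        · exact (ContinuousLinearMap.apply ℂ Kf z).continuous.comp continuous_subtype_val
        · refine Continuous.mul ?_ continuous_const
          refine continuous_const.inner ?_
          exact (ContinuousLinearMap.apply ℂ Kf x).continuous.comp continuous_subtype_val
      · intro a
        have h1 := hc a (j z) (j w) (hjk z hz) (hjk w hw)
        rw [← hj, j.inner_map_map, j.inner_map_map] at h1
        exact h1
  · -- cardinality
    exact mk_closure_le hcard q hqd
  · refine ⟨κ, fun L _ _ _ π hπ => ?_⟩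
    exact ker_line (c := fun b => ⟪x, ((b : B) : Op Kf) x⟫_ℂ) κ (hdetB L hπ.toUnital)
      (hkerB L hπ.toUnital) hπ

end Vale.Agent.P070
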