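import Vale.Agent.P070.H500.Defs
import Vale.Agent.P070.H500.Pure
import Vale.Agent.P070.H500.Card
import Mathlib.Analysis.CStarAlgebra.ContinuousMap

/-! Simplicity, absence of compact operators, and C*-algebras with exactly `card J` irreducible
representations. -/

open scoped InnerProductSpace ZeroAtInfty
open Set Filter Topology

namespace Vale.Agent.P070.Naimark

open Vale.Agent.P070.H500

universe u v w

section basic
variable {A : Type u} [NonUnitalCStarAlgebra A]
  {L : Type v} [NormedAddCommGroup L] [InnerProductSpace ℂ L] [CompleteSpace L]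

theorem op_add (π : Rep A L) (a b : A) : π.op (a + b) = π.op a + π.op b :=
  map_add (F := A →⋆ₙₐ[ℂ] (L →L[ℂ] L)) π a b

theorem op_smul (π : Rep A L) (c : ℂ) (a : A) : π.op (c • a) = c • π.op a :=
  map_smul (F := A →⋆ₙₐ[ℂ] (L →L[ℂ] L)) π c a

theorem op_zero (π : Rep A L) : π.op 0 = 0 :=
  map_zero (F := A →⋆ₙₐ[ℂ] (L →L[ℂ] L)) π

theorem op_mul (π : Rep A L) (a b : A) : π.op (a * b) = π.op a * π.op b :=
  map_mul (F := A →⋆ₙₐ[ℂ] (L →L[ℂ] L)) π a b

theorem op_mul_apply (π : Rep A L) (a b : A) (x : L) : π.op (a * b) x = π.op a (π.op b x) := by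
  rw [op_mul]; rfl

theorem op_norm_le (π : Rep A L) (a : A) : ‖π.op a‖ ≤ ‖a‖ :=
  NonUnitalStarAlgHom.norm_apply_le (F := A →⋆ₙₐ[ℂ] (L →L[ℂ] L)) π a

theorem op_sub (π : Rep A L) (a b : A) : π.op (a - b) = π.op a - π.op b :=
  map_sub (F := A →⋆ₙₐ[ℂ] (L →L[ℂ] L)) π a b

theorem continuous_op (π : Rep A L) : Continuous π.op :=
  AddMonoidHomClass.continuous_of_bound (show A →⋆ₙₐ[ℂ] (L →L[ℂ] L) from π) 1 fun a => by
    rw [one_mul]
    exact op_norm_le π a

/-- The linear map `a ↦ π(a)`. -/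
def opLin (π : Rep A L) : A →ₗ[ℂ] (L →L[ℂ] L) where
  toFun := π.op
  map_add' := op_add π
  map_smul' := op_smul π

theorem IsIrred.nontrivial {π : Rep A L} (h : IsIrred π) : Nontrivial L := by
  obtain ⟨a, x, hx⟩ := h.1
  exact ⟨_, _, hx⟩

/-- Equivalence of representations on Hilbert spaces in possibly different universes. -/
def HEquiv {M : Type w} [NormedAddCommGroup M] [InnerProductSpace ℂ M] [CompleteSpace M]
    (π : Rep A L) (σ : Rep A M) : Prop :=
  ∃ W : L ≃ₗᵢ[ℂ] M, ∀ a x, W (π.op a x) = σ.op a (W x)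

theorem HEquiv.irred {M : Type w} [NormedAddCommGroup M] [InnerProductSpace ℂ M] [CompleteSpace M]
    {π : Rep A L} {σ : Rep A M} (h : HEquiv π σ) (hπ : IsIrred π) : IsIrred σ := by
  obtain ⟨W, hW⟩ := h
  refine ⟨?_, fun V hV hinv => ?_⟩
  · obtain ⟨a, x, hx⟩ := hπ.1
    refine ⟨a, W x, fun h0 => hx ?_⟩
    rw [← hW] at h0
    exact (map_eq_zero_iff W W.injective).1 h0
  · rcases hπ.2 (V.comap (W : L →ₗ[ℂ] M)) (hV.preimage W.continuous) (by
      intro a x hx
      show W (π.op a x) ∈ V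
      rw [hW]
      exact hinv a _ hx) with h1 | h1
    · left
      rw [eq_bot_iff]
      intro y hy
      have h2 : W.symm y ∈ V.comap (W : L →ₗ[ℂ] M) := by
        show W (W.symm y) ∈ V
        rwa [W.apply_symm_apply]
      rw [h1, Submodule.mem_bot] at h2
      rw [Submodule.mem_bot]
      have h3 := congrArg W h2
      rwa [W.apply_symm_apply, map_zero] at h3
    · right
      rw [eq_top_iff]
      intro y _
      have h2 : W.symm y ∈ V.comap (W : L →ₗ[ℂ] M) := by rw [h1]; trivial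
      have h3 : W (W.symm y) ∈ V := h2
      rwa [W.apply_symm_apply] at h3

theorem HEquiv.faithful {M : Type w} [NormedAddCommGroup M] [InnerProductSpace ℂ M]
    [CompleteSpace M] {π : Rep A L} {σ : Rep A M} (h : HEquiv π σ) (hπ : IsFaithful π) :
    IsFaithful σ := by
  obtain ⟨W, hW⟩ := h
  intro a b hab
  apply hπ
  ext x
  apply W.injective
  rw [hW, hW, hab]

/-- A representation on a Hilbert space in `Type` has an equivalent copy in every universe. -/
theorem exists_lift {N : Type} [NormedAddCommGroup N] [InnerProductSpace ℂ N] [CompleteSpace N]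
    (π : Rep A N) : ∃ (M : Type v) (_ : NormedAddCommGroup M) (_ : InnerProductSpace ℂ M)
      (_ : CompleteSpace M) (σ : Rep A M), HEquiv π σ := by
  obtain ⟨s, b, hb⟩ := exists_hilbertBasis ℂ N
  let b' : HilbertBasis (ULift.{v} s) ℂ N := HilbertBasis.mk (v := fun i => b i.down)
    (b.orthonormal.comp _ ULift.down_injective) (by
      have : Set.range (fun i : ULift.{v} s => b i.down) = Set.range b :=
        ULift.down_surjective.range_comp b
      rw [this, b.dense_span])
  refine ⟨lp (fun _ : ULift.{v} s => ℂ) 2, inferInstance, inferInstance, inferInstance,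
    NonUnitalStarAlgHom.comp (b'.repr.conjStarAlgEquiv : (N →L[ℂ] N) →⋆ₙₐ[ℂ] _) π, b'.repr,
    fun a x => ?_⟩
  show b'.repr (π.op a x) = b'.repr.conjStarAlgEquiv (π.op a) (b'.repr x)
  rw [LinearIsometryEquiv.conjStarAlgEquiv_apply_apply, LinearIsometryEquiv.symm_apply_apply]

/-- A central idempotent acts as `0` or `1` in an irreducible representation. -/
theorem central_idem {π : Rep A L} (h : IsIrred π) {e : A} (he : e * e = e)
    (hc : ∀ b, e * b = b * e) : π.op e = 0 ∨ π.op e = 1 := by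
  have hidem : ∀ x, π.op e (π.op e x) = π.op e x := fun x => by rw [← op_mul_apply, he]
  rcases h.2 (LinearMap.ker ((1 - π.op e : L →L[ℂ] L) : L →ₗ[ℂ] L))
    (ContinuousLinearMap.isClosed_ker (1 - π.op e : L →L[ℂ] L)) (by
      intro b x hx
      have hx' : x - π.op e x = 0 := hx
      show π.op b x - π.op e (π.op b x) = 0
      rw [← op_mul_apply, hc, op_mul_apply, ← map_sub, hx', map_zero]) with h1 | h1
  · left
    ext x
    have h2 : π.op e x ∈ LinearMap.ker ((1 - π.op e : L →L[ℂ] L) : L →ₗ[ℂ] L) := by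
      show π.op e x - π.op e (π.op e x) = 0
      rw [hidem, sub_self]
    rw [h1, Submodule.mem_bot] at h2
    rw [h2, zero_apply]
  · right
    ext x
    have h2 : x ∈ LinearMap.ker ((1 - π.op e : L →L[ℂ] L) : L →ₗ[ℂ] L) := by
      rw [h1]; trivial
    have h3 : x - π.op e x = 0 := h2
    exact (sub_eq_zero.1 h3).symm

end basic

section one
variable {A : Type} [CStarAlgebra A]

theorem op_one {M : Type v} [NormedAddCommGroup M] [InnerProductSpace ℂ M] [CompleteSpace M]
    {σ : Rep A M} (hσ : IsIrred σ) : σ.op 1 = 1 := by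
  rcases central_idem hσ (e := 1) (one_mul 1) (fun b => by rw [one_mul, mul_one]) with h | h
  · exfalso
    obtain ⟨a, x, hx⟩ := hσ.1
    apply hx
    rw [← one_mul a, op_mul, h, zero_mul, zero_apply]
  · exact h

theorem exists_faithful (hF : HasFaithfulIrrep.{0, 0} A) : HasFaithfulIrrep.{0, v} A := by
  obtain ⟨L, _, _, _, π, h1, h2⟩ := hF
  obtain ⟨M, _, _, _, σ, hσ⟩ := exists_lift.{0, v} π
  exact ⟨M, inferInstance, inferInstance, inferInstance, σ, hσ.faithful h1, hσ.irred h2⟩

theorem faithful_of_irred (hN : PropertyN.{0, v} A) (hF : HasFaithfulIrrep.{0, v} A)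
    {M : Type v} [NormedAddCommGroup M] [InnerProductSpace ℂ M] [CompleteSpace M]
    {σ : Rep A M} (hσ : IsIrred σ) : IsFaithful σ := by
  obtain ⟨L, _, _, _, π, h1, h2⟩ := hF
  exact HEquiv.faithful (hN.2 L M π σ h2 hσ) h1

theorem isSimpleAlg (hN : PropertyN.{0, v} A) (hF : HasFaithfulIrrep.{0, v} A) :
    IsSimpleAlg A := by
  refine ⟨hN.1, fun I hcl hI => ?_⟩
  by_cases h1 : (1 : A) ∈ I
  · right
    rw [eq_top_iff]
    intro a _
    have := (hI a 1 h1).1
    rwa [mul_one] at this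
  · left
    obtain ⟨L, _, _, _, π, hπ, hk⟩ := exists_irrep_killing I hcl
      (fun a b hb => (hI a b hb).1) (fun a b hb => (hI a b hb).2) h1
    obtain ⟨M, _, _, _, σ, hσ⟩ := exists_lift.{0, v} π
    have hf := faithful_of_irred hN hF (hσ.irred hπ)
    obtain ⟨W, hW⟩ := hσ
    rw [eq_bot_iff]
    intro a ha
    rw [Submodule.mem_bot]
    apply hf
    rw [op_zero]
    ext y
    obtain ⟨x, rfl⟩ := W.surjective y
    rw [← hW, hk a ha, zero_apply, map_zero, zero_apply]

theorem compactFree (hN : PropertyN.{0, v} A) (hF : HasFaithfulIrrep.{0, v} A)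
    (hinf : ¬ FiniteDimensional ℂ A) : CompactFree.{0, v} A := by
  intro M _ _ _ σ hσ a ha
  have hf := faithful_of_irred hN hF hσ
  let I : Submodule ℂ A :=
    { carrier := {a | IsCompactOperator (σ.op a)}
      add_mem' := fun {a b} ha hb => by
        show IsCompactOperator (σ.op (a + b))
        rw [op_add]
        exact IsCompactOperator.add ha hb
      zero_mem' := by
        show IsCompactOperator (σ.op 0)
        rw [op_zero]
        exact isCompactOperator_zero
      smul_mem' := fun c a ha => by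
        show IsCompactOperator (σ.op (c • a))
        rw [op_smul]
        exact IsCompactOperator.smul ha c }
  have hmem : ∀ b, b ∈ I ↔ IsCompactOperator (σ.op b) := fun b => Iff.rfl
  rcases (isSimpleAlg hN hF).2 I
    (isClosed_setOfPred_isCompactOperator.preimage (continuous_op σ)) (by
      intro b c hc
      rw [hmem] at hc
      rw [hmem, hmem, op_mul, op_mul]
      exact ⟨hc.clm_comp (σ.op b), hc.comp_clm (σ.op b)⟩) with h | h
  · have h2 : a ∈ I := ha
    rw [h, Submodule.mem_bot] at h2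
    rw [h2, op_zero]
  · exfalso
    have h2 : (1 : A) ∈ I := by rw [h]; trivial
    rw [hmem, op_one hσ] at h2
    have hid : IsCompactOperator (id : M → M) := h2
    have hfin : FiniteDimensional ℂ M := FiniteDimensional.of_isCompactOperator_id hid
    have hfin2 : FiniteDimensional ℂ (M →L[ℂ] M) := inferInstance
    exact hinf (FiniteDimensional.of_injective (opLin σ) hf)

end one

section sum
variable {A : Type} [CStarAlgebra A] {J : Type u} [TopologicalSpace J] [DiscreteTopology J]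

open scoped Classical in
/-- The element of `C₀(J, A)` with value `a` at `j` and `0` elsewhere. -/
noncomputable def sgl (j : J) (a : A) : C₀(J, A) where
  toFun := fun i => if i = j then a else 0
  continuous_toFun := continuous_of_discreteTopology
  zero_at_infty' := by
    rw [Filter.cocompact_eq_cofinite]
    refine tendsto_const_nhds.congr' ?_
    have h : ∀ᶠ i in Filter.cofinite, i ≠ j :=
      (Set.finite_singleton j).compl_mem_cofinite
    filter_upwards [h] with i hi
    rw [if_neg hi]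

theorem sgl_same (j : J) (a : A) : sgl j a j = a := if_pos rfl

theorem sgl_ne {i j : J} (h : i ≠ j) (a : A) : sgl j a i = 0 := if_neg h

/-- Evaluation at `j`. -/
def evHom (j : J) : C₀(J, A) →⋆ₙₐ[ℂ] A where
  toFun f := f j
  map_smul' _ _ := rfl
  map_zero' := rfl
  map_add' _ _ := rfl
  map_mul' _ _ := rfl
  map_star' _ := rfl

/-- The inclusion of the `j`-th summand. -/
noncomputable def sglHom (j : J) : A →⋆ₙₐ[ℂ] C₀(J, A) where
  toFun := sgl j
  map_smul' c a := by
    ext i
    by_cases h : i = j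
    · subst h; simp [sgl_same]
    · simp [sgl_ne h]
  map_zero' := by
    ext i
    by_cases h : i = j
    · subst h; simp [sgl_same]
    · simp [sgl_ne h]
  map_add' a b := by
    ext i
    by_cases h : i = j
    · subst h; simp [sgl_same]
    · simp [sgl_ne h]
  map_mul' a b := by
    ext i
    by_cases h : i = j
    · subst h; simp [sgl_same]
    · simp [sgl_ne h]
  map_star' a := by
    ext i
    by_cases h : i = j
    · subst h; simp [sgl_same]
    · simp [sgl_ne h]

theorem sgl_mul (j : J) (a : A) (f : C₀(J, A)) : sgl j a * f = sgl j (a * f j) := by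
  ext i
  by_cases h : i = j
  · subst h; simp [sgl_same]
  · simp [sgl_ne h]

theorem mul_sgl (j : J) (a : A) (f : C₀(J, A)) : f * sgl j a = sgl j (f j * a) := by
  ext i
  by_cases h : i = j
  · subst h; simp [sgl_same]
  · simp [sgl_ne h]

theorem sum_sgl_mem (F : Finset J) (f : C₀(J, A)) {i : J} (hi : i ∈ F) :
    (∑ j ∈ F, sgl j (f j)) i = f i := by
  have h1 : (∑ j ∈ F, sgl j (f j)) i = ∑ j ∈ F, (sgl j (f j)) i :=
    map_sum (evHom i) (fun j => sgl j (f j)) F
  rw [h1, Finset.sum_eq_single_of_mem i hi fun j _ hj => sgl_ne (Ne.symm hj) _, sgl_same]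

theorem sum_sgl_not_mem (F : Finset J) (f : C₀(J, A)) {i : J} (hi : i ∉ F) :
    (∑ j ∈ F, sgl j (f j)) i = 0 := by
  have h1 : (∑ j ∈ F, sgl j (f j)) i = ∑ j ∈ F, (sgl j (f j)) i :=
    map_sum (evHom i) (fun j => sgl j (f j)) F
  rw [h1]
  exact Finset.sum_eq_zero fun j hj => sgl_ne (fun h => hi (by rwa [h])) _

/-- Finitely supported functions are dense. -/
theorem exists_approx (f : C₀(J, A)) {ε : ℝ} (hε : 0 < ε) :
    ∃ F : Finset J, ‖f - ∑ j ∈ F, sgl j (f j)‖ ≤ ε := by
  have h1 : Tendsto f Filter.cofinite (𝓝 0) := by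
    have := f.zero_at_infty'
    rwa [Filter.cocompact_eq_cofinite] at this
  have h2 : ∀ᶠ i in Filter.cofinite, ‖f i‖ < ε := by
    have := h1.norm
    rw [norm_zero] at this
    exact this.eventually_lt_const hε
  have h3 : {i | ¬ ‖f i‖ < ε}.Finite := h2
  refine ⟨h3.toFinset, ?_⟩
  rw [← ZeroAtInftyContinuousMap.norm_toBCF_eq_norm, BoundedContinuousFunction.norm_le hε.le]
  intro i
  show ‖f i - (∑ j ∈ h3.toFinset, sgl j (f j)) i‖ ≤ ε
  by_cases hi : i ∈ h3.toFinset
  · rw [sum_sgl_mem _ _ hi, sub_self, norm_zero]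
    exact hε.le
  · rw [sum_sgl_not_mem _ _ hi, sub_zero]
    rw [Set.Finite.mem_toFinset] at hi
    have hi' : ¬ ¬ ‖f i‖ < ε := hi
    exact (not_not.1 hi').le

section
variable {M : Type v} [NormedAddCommGroup M] [InnerProductSpace ℂ M] [CompleteSpace M]

theorem op_eq_zero_of_sgl (σ : Rep C₀(J, A) M) (h : ∀ j a, σ.op (sgl j a) = 0)
    (f : C₀(J, A)) : σ.op f = 0 := by
  rw [← norm_le_zero_iff]
  refine le_of_forall_pos_le_add fun ε hε => ?_
  obtain ⟨F, hF⟩ := exists_approx f hε
  have h1 : σ.op (∑ j ∈ F, sgl j (f j)) = 0 := by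
    have h2 : σ.op (∑ j ∈ F, sgl j (f j)) = ∑ j ∈ F, σ.op (sgl j (f j)) :=
      map_sum (opLin σ) (fun j => sgl j (f j)) F
    rw [h2]
    exact Finset.sum_eq_zero fun j _ => h j _
  have h2 : σ.op f = σ.op (f - ∑ j ∈ F, sgl j (f j)) := by rw [op_sub, h1, sub_zero]
  rw [h2, zero_add]
  exact (op_norm_le σ _).trans hF

/-- The representation `f ↦ π(f(j))`. -/
noncomputable def evRep (π : Rep A M) (j : J) : Rep C₀(J, A) M :=
  NonUnitalStarAlgHom.comp π (evHom j)

omit [DiscreteTopology J] in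
theorem evRep_op (π : Rep A M) (j : J) (f : C₀(J, A)) : (evRep π j).op f = π.op (f j) := rfl

/-- The representation `a ↦ σ(a δ_j)`. -/
noncomputable def resRep (σ : Rep C₀(J, A) M) (j : J) : Rep A M :=
  NonUnitalStarAlgHom.comp σ (sglHom j)

theorem resRep_op (σ : Rep C₀(J, A) M) (j : J) (a : A) : (resRep σ j).op a = σ.op (sgl j a) := rfl

theorem evRep_irred {π : Rep A M} (hπ : IsIrred π) (j : J) : IsIrred (evRep π j) := by
  refine ⟨?_, fun V hV hinv => hπ.2 V hV fun a x hx => ?_⟩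
  · obtain ⟨a, x, hx⟩ := hπ.1
    exact ⟨sgl j a, x, by rwa [evRep_op, sgl_same]⟩
  · have := hinv (sgl j a) x hx
    rwa [evRep_op, sgl_same] at this

theorem evRep_inequiv {π : Rep A M} (hπ : IsIrred π) {i j : J}
    (h : UnitEquiv (evRep π i) (evRep π j)) : i = j := by
  by_contra hij
  obtain ⟨W, hW⟩ := h
  obtain ⟨x, hx⟩ := @exists_ne M hπ.nontrivial 0
  apply hx
  have h1 := hW (sgl i 1) x
  rw [evRep_op, evRep_op, sgl_same, sgl_ne (Ne.symm hij), op_one hπ, op_zero, zero_apply] at h1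
  exact (map_eq_zero_iff W W.injective).1 h1

/-- Every irreducible representation of `C₀(J, A)` factors through an evaluation. -/
theorem exists_factor {σ : Rep C₀(J, A) M} (hσ : IsIrred σ) :
    ∃ j, IsIrred (resRep σ j) ∧ ∀ f, σ.op f = (resRep σ j).op (f j) := by
  obtain ⟨j, hj⟩ : ∃ j, σ.op (sgl j (1 : A)) ≠ 0 := by
    by_contra hcon
    push Not at hcon
    obtain ⟨f, x, hx⟩ := hσ.1
    apply hx
    rw [op_eq_zero_of_sgl σ _ f, zero_apply]
    intro j a
    have h1 : sgl j (1 : A) * sgl j a = sgl j a := by rw [sgl_mul, sgl_same, one_mul]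
    rw [← h1, op_mul, hcon, zero_mul]
  have h1 : σ.op (sgl j (1 : A)) = 1 :=
    (central_idem hσ (by rw [sgl_mul, sgl_same, one_mul])
      (fun f => by rw [sgl_mul, mul_sgl, one_mul, mul_one])).resolve_left hj
  have h2 : ∀ f, σ.op f = (resRep σ j).op (f j) := by
    intro f
    rw [resRep_op]
    have h3 : sgl j (f j) = sgl j (1 : A) * f := by rw [sgl_mul, one_mul]
    rw [h3, op_mul, h1, one_mul]
  refine ⟨j, ⟨?_, fun V hV hinv => hσ.2 V hV fun f x hx => ?_⟩, h2⟩
  · obtain ⟨f, x, hx⟩ := hσ.1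
    exact ⟨f j, x, by rwa [← h2]⟩
  · rw [h2]
    exact hinv _ x hx

end

theorem irreps_sum (hN : PropertyN.{0, v} A) (hF : HasFaithfulIrrep.{0, v} A) :
    IrrepsIndexedBy.{u, v, u} C₀(J, A) J := by
  obtain ⟨L, i1, i2, i3, π, _, hπ⟩ := hF
  refine ⟨fun _ => L, fun _ => i1, fun _ => i2, fun _ => i3, fun j => evRep π j,
    fun j => evRep_irred hπ j, fun i j h => evRep_inequiv hπ h, ?_⟩
  intro M _ _ _ σ hσ
  obtain ⟨j, hj, hfac⟩ := exists_factor hσ
  obtain ⟨W, hW⟩ := hN.2 L M π (resRep σ j) hπ hj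
  refine ⟨j, W, fun f x => ?_⟩
  rw [hfac, ← hW]
  rfl

theorem compactFree_sum (hC : CompactFree.{0, v} A) : CompactFree.{u, v} C₀(J, A) := by
  intro M _ _ _ σ hσ f hf
  obtain ⟨j, hj, hfac⟩ := exists_factor hσ
  rw [hfac] at hf ⊢
  exact hC M _ hj _ hf

theorem exists_unit [Finite J] : ∃ e : C₀(J, A), ∀ f : C₀(J, A), e * f = f ∧ f * e = f := by
  refine ⟨⟨⟨fun _ => 1, continuous_const⟩, ?_⟩, fun f => ⟨?_, ?_⟩⟩
  · rw [Filter.cocompact_eq_cofinite, Filter.cofinite_eq_bot]
    exact tendsto_bot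
  · ext i
    exact one_mul _
  · ext i
    exact mul_one _

end sum

/-- A nonzero C*-algebra without compact operators in irreducible representations is not an
algebra of compact operators. -/
theorem CompactFree.not_isCompacts {B : Type u} [NonUnitalCStarAlgebra B] [Nontrivial B]
    (h : CompactFree.{u, v} B) : ¬ IsCompacts.{u, v} B := by
  rintro ⟨L, _, _, _, τ, hinj, hrange⟩
  have hro : ∀ x y : L, ∃ b, τ.op b = (InnerProductSpace.rankOne ℂ x y : L →L[ℂ] L) := by
    intro x y
    refine (hrange _).1 ?_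
    rw [InnerProductSpace.rankOne_def']
    have h0 : IsCompactOperator (ContinuousLinearMap.toSpanSingleton ℂ x : ℂ →L[ℂ] L) :=
      isCompactOperator_of_locallyCompactSpace_rng _
    exact h0.comp_clm (innerSL ℂ y)
  obtain ⟨b, hb⟩ := exists_ne (0 : B)
  have hb0 : τ.op b ≠ 0 := fun h0 => hb (hinj (by rw [h0, op_zero]))
  have hex : ∃ x, τ.op b x ≠ 0 := by
    by_contra hcon
    push Not at hcon
    exact hb0 (ContinuousLinearMap.ext hcon)
  have hirr : IsIrred τ := by
    refine ⟨⟨b, hex⟩, fun V hV hinv => ?_⟩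
    by_cases hbot : V = ⊥
    · exact Or.inl hbot
    · right
      obtain ⟨y, hy, hy0⟩ := (Submodule.ne_bot_iff V).1 hbot
      rw [eq_top_iff]
      intro x _
      obtain ⟨c, hc⟩ := hro x y
      have h1 := hinv c y hy
      rw [hc, InnerProductSpace.rankOne_apply] at h1
      have h2 : ⟪y, y⟫_ℂ ≠ 0 := inner_self_ne_zero.2 hy0
      have h3 := V.smul_mem (⟪y, y⟫_ℂ)⁻¹ h1
      rwa [smul_smul, inv_mul_cancel₀ h2, one_smul] at h3
  exact hb0 (h L τ hirr b ((hrange _).2 ⟨b, rfl⟩))

/-- The counterexample, with its cardinality and with an element whose kernel is a line in every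
irreducible representation. -/
theorem main' : ∃ (A : Type) (_ : CStarAlgebra A),
    PropertyN.{0, v} A ∧ ¬ IsCompacts.{0, w} A ∧ ¬ FiniteDimensional ℂ A ∧
    HasFaithfulIrrep.{0, 0} A ∧ Cardinal.mk A ≤ Cardinal.continuum ∧ HasLineElement.{0, v} A := by
  obtain ⟨B, _, hN, hC, hF, ⟨L, _, _, _, π, hπ, hinj⟩, hcard, d, hd⟩ := main_exists'.{v, w}
  have conv : ∀ {M : Type v} [NormedAddCommGroup M] [InnerProductSpace ℂ M] [CompleteSpace M]
      (σ : Rep B M), IsIrred σ → Vale.Agent.P070.IsIrred (A := B) (L := M) σ := by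
    intro M _ _ _ σ hσ
    refine ⟨?_, hσ.2⟩
    obtain ⟨a, x, hax⟩ := hσ.1
    refine ⟨a, fun h => hax ?_⟩
    have h1 : Rep.op σ a = 0 := h
    rw [h1]
    rfl
  refine ⟨B, inferInstance, ⟨hN.1, ?_⟩, ?_, hF, ⟨L, inferInstance, inferInstance, inferInstance,
    π, hinj, ?_, hπ.2⟩, hcard, d, ?_⟩
  · intro L M _ _ _ _ _ _ π σ hπ hσ
    exact hN.2 L M π σ (conv π hπ) (conv σ hσ)
  · rintro ⟨L, _, _, _, f, h1, h2⟩
    refine hC ⟨L, inferInstance, inferInstance, inferInstance, f, h1, ?_⟩
    ext T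
    exact (h2 T).symm
  · obtain ⟨a, ha⟩ := hπ.1
    by_contra hcon
    push Not at hcon
    apply ha
    ext x
    exact hcon a x
  · intro M _ _ _ σ hσ
    obtain ⟨z, hz, hzk⟩ := hd M σ (conv σ hσ)
    have hzk' : ∀ w : M, σ.op d w = 0 ↔ ∃ c : ℂ, w = c • z := hzk
    refine finrank_eq_one_iff'.2 ⟨⟨z, (hzk' z).2 ⟨1, (one_smul _ _).symm⟩⟩, ?_, ?_⟩
    · intro h
      exact hz (congrArg Subtype.val h)
    · rintro ⟨y, hy⟩
      obtain ⟨c, hc⟩ := (hzk' y).1 hy
      exact ⟨c, Subtype.ext hc.symm⟩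

/-- The strengthened theorem. -/
theorem strong : (∃ (A : Type) (_ : CStarAlgebra A),
      PropertyN.{0, v} A ∧ ¬ IsCompacts.{0, w} A ∧ ¬ FiniteDimensional ℂ A ∧
      HasFaithfulIrrep.{0, 0} A ∧ Cardinal.mk A = Cardinal.continuum ∧ IsSimpleAlg A ∧
      CompactFree.{0, v} A ∧ HasLineElement.{0, v} A) ∧
    ∀ J : Type u, Nonempty J → ∃ (B : Type u) (_ : NonUnitalCStarAlgebra B),
      IrrepsIndexedBy.{u, v, u} B J ∧ CompactFree.{u, v} B ∧ ¬ IsCompacts.{u, v} B ∧
      (Finite J → ∃ e : B, ∀ b : B, e * b = b ∧ b * e = b) := by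
  obtain ⟨A, _, hN, hC, hinf, hF, hcard, hline⟩ := main'.{v, w}
  have hF' := exists_faithful.{v} hF
  have hfree := compactFree hN hF' hinf
  have hnt : Nontrivial A := hN.1
  have hcard' : Cardinal.mk A = Cardinal.continuum := by
    refine le_antisymm hcard ?_
    rw [← Cardinal.mk_complex]
    refine Cardinal.mk_le_of_injective (f := fun c : ℂ => c • (1 : A)) ?_
    exact smul_left_injective ℂ one_ne_zero
  refine ⟨⟨A, inferInstance, hN, hC, hinf, hF, hcard', isSimpleAlg hN hF', hfree, hline⟩, ?_⟩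
  intro J hJ
  let tJ : TopologicalSpace J := ⊥
  have dJ : DiscreteTopology J := ⟨rfl⟩
  have hntB : Nontrivial C₀(J, A) := by
    obtain ⟨j⟩ := hJ
    refine ⟨⟨sgl j 1, 0, fun h => ?_⟩⟩
    have h1 := congrArg (fun f : C₀(J, A) => f j) h
    simp only [sgl_same] at h1
    exact one_ne_zero h1
  exact ⟨C₀(J, A), inferInstance, irreps_sum hN hF', compactFree_sum hfree,
    (compactFree_sum hfree).not_isCompacts, fun _ => exists_unit⟩

end Vale.Agent.P070.Naimark
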