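import Vale.Agent.P070.Statement

namespace Vale.Agent.P070.Naimark

universe u v w

/-- `A` is simple: `A ≠ 0` and the only closed two-sided ideals of `A` are `0` and `A`. -/
def IsSimpleAlg (A : Type u) [NonUnitalCStarAlgebra A] : Prop :=
  Nontrivial A ∧ ∀ I : Submodule ℂ A, IsClosed (I : Set A) →
    (∀ a : A, ∀ b ∈ I, a * b ∈ I ∧ b * a ∈ I) → I = ⊥ ∨ I = ⊤

/-- No irreducible representation of `A` has a nonzero compact operator in its range. -/
def CompactFree (A : Type u) [NonUnitalCStarAlgebra A] : Prop :=
  ∀ (L : Type v) [NormedAddCommGroup L] [InnerProductSpace ℂ L] [CompleteSpace L]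
    (π : Rep A L), IsIrred π → ∀ a, IsCompactOperator (π.op a) → π.op a = 0

/-- Some element `d` of `A` has a one-dimensional kernel in every irreducible representation. -/
def HasLineElement (A : Type u) [NonUnitalCStarAlgebra A] : Prop :=
  ∃ d : A, ∀ (L : Type v) [NormedAddCommGroup L] [InnerProductSpace ℂ L] [CompleteSpace L]
    (π : Rep A L), IsIrred π → Module.finrank ℂ (LinearMap.ker (π.op d : L →ₗ[ℂ] L)) = 1

/-- The irreducible representations of `A`, up to unitary equivalence, are exactly the members
of a family `(π_j)_{j ∈ J}` of pairwise inequivalent irreducible representations: `A` has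
exactly `card J` irreducible representations up to unitary equivalence. -/
def IrrepsIndexedBy (A : Type u) [NonUnitalCStarAlgebra A] (J : Type w) : Prop :=
  ∃ (L : J → Type v) (_ : ∀ j, NormedAddCommGroup (L j)) (_ : ∀ j, InnerProductSpace ℂ (L j))
    (_ : ∀ j, CompleteSpace (L j)) (π : ∀ j, Rep A (L j)),
    (∀ j, IsIrred (π j)) ∧ (∀ i j, UnitEquiv (π i) (π j) → i = j) ∧
    ∀ (M : Type v) [NormedAddCommGroup M] [InnerProductSpace ℂ M] [CompleteSpace M]
      (σ : Rep A M), IsIrred σ → ∃ j, UnitEquiv (π j) σ

end Vale.Agent.P070.Naimark
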